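import Mathlib
import Vale.Agent.P355.RootsOfUnity

/-!
No three mutually unbiased bases of `ℂ ^ 6` of Butson type of order dividing `3 ^ k + 1`.
-/

theorem Vale.Agent.Results.P355.ButsonTriples.result :
    ∀ (n k : ℕ), n ∣ 3 ^ k + 1 →
      ∀ b₀ b₁ b₂ : OrthonormalBasis (Fin 6) ℂ (EuclideanSpace ℂ (Fin 6)),
        (∀ i j, ((Real.sqrt 6 : ℝ) * inner ℂ (b₀ i) (b₁ j) : ℂ) ^ n = 1) →
        (∀ i l, ((Real.sqrt 6 : ℝ) * inner ℂ (b₀ i) (b₂ l) : ℂ) ^ n = 1) →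
        ∀ j l, ‖inner ℂ (b₁ j) (b₂ l)‖ ^ 2 ≠ 1 / 6 :=
  fun _ _ hn b₀ b₁ b₂ h₁ h₂ j l =>
    Vale.Agent.P355.not_unbiased hn b₀ (b₁ j) (b₂ l) (fun i => h₁ i j) (fun i => h₂ i l)
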